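import Mathlib

/-!
# P216-V, V2 (algebra): frame

`Dga k A`: a graded commutative differential graded algebra `A` (the degree is a family of
submodules `deg q`, `sg` is the sign involution). `x j` even elements, `y` odd: the piece
`S = k[x] ⊗ Λ(y)`, `d x_j = y Q_j(x)`, `d y = P(x)`, of the minimal model; `Pre m`: the map
`H^q(S) → H^q(A)` is bijective for `q ≤ m` and injective for `q = m + 1`.
`Two`: such a piece with a second odd generator.
-/

open MvPolynomial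

namespace Vale.Agent.P216.V706

/-- A graded commutative differential graded algebra. -/
structure Dga (k A : Type*) [Field k] [Ring A] [Algebra k A] where
  deg : ℕ → Submodule k A
  d : A →ₗ[k] A
  sg : A →ₐ[k] A
  d_d : ∀ a, d (d a) = 0
  d_mul : ∀ a b, d (a * b) = d a * b + sg a * d b
  sg_deg : ∀ {q : ℕ} {a : A}, a ∈ deg q → sg a = (-1 : k) ^ q • a
  one_mem : (1 : A) ∈ deg 0
  mul_mem : ∀ {p q : ℕ} {a b : A}, a ∈ deg p → b ∈ deg q → a * b ∈ deg (p + q)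
  d_mem : ∀ {q : ℕ} {a : A}, a ∈ deg q → d a ∈ deg (q + 1)
  comm_even : ∀ {q : ℕ} {a : A}, a ∈ deg (2 * q) → ∀ b, a * b = b * a
  sq_odd : ∀ {q : ℕ} {a : A}, a ∈ deg (2 * q + 1) → a * a = 0

namespace Dga

variable {k A : Type*} [Field k] [Ring A] [Algebra k A] (D : Dga k A)

/-- cocycles -/
def Z (q : ℕ) : Submodule k A := D.deg q ⊓ LinearMap.ker D.d

/-- coboundaries -/
def B : ℕ → Submodule k A
  | 0 => ⊥
  | q + 1 => (D.deg q).map D.d

theorem mem_Z {q : ℕ} {a : A} : a ∈ D.Z q ↔ a ∈ D.deg q ∧ D.d a = 0 := by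
  simp [Z]

theorem mem_B_succ {q : ℕ} {a : A} : a ∈ D.B (q + 1) ↔ ∃ b ∈ D.deg q, D.d b = a := by
  simp [B, Submodule.mem_map]

theorem mem_B_zero {a : A} : a ∈ D.B 0 ↔ a = 0 := by
  simp [B]

theorem B_le_Z (q : ℕ) : D.B q ≤ D.Z q := by
  cases q with
  | zero => exact bot_le
  | succ q =>
    rintro a ha
    obtain ⟨b, hb, rfl⟩ := D.mem_B_succ.1 ha
    exact D.mem_Z.2 ⟨D.d_mem hb, D.d_d b⟩

/-- `H^*(A)` is generated by one class: `k[x] / (x ^ (h + 1))`. -/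
def Mono : Prop := ∃ (e h : ℕ) (x : A), 1 ≤ e ∧ x ∈ D.Z e ∧ (∀ j ≤ h, x ^ j ∉ D.B (e * j)) ∧
  ∀ q, ∀ f ∈ D.Z q, f ∈ D.B q ∨ ∃ j ≤ h, e * j = q ∧ ∃ c : k, f - c • x ^ j ∈ D.B q

theorem mem_center {q : ℕ} {a : A} (ha : a ∈ D.deg (2 * q)) : a ∈ Subalgebra.center k A :=
  Subalgebra.mem_center_iff.2 fun b => (D.comm_even ha b).symm

end Dga

section Ev

variable {k A : Type*} [Field k] [Ring A] [Algebra k A]

/-- Evaluation of polynomials at central elements. -/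
noncomputable def ev {σ : Type} (x : σ → Subalgebra.center k A) : MvPolynomial σ k →ₐ[k] A :=
  (Subalgebra.center k A).val.comp (aeval x)

@[simp] theorem ev_X {σ : Type} (x : σ → Subalgebra.center k A) (j : σ) : ev x (X j) = x j := by
  simp [ev]

@[simp] theorem ev_C {σ : Type} (x : σ → Subalgebra.center k A) (c : k) :
    ev x (C c) = algebraMap k A c := by
  simp [ev]

theorem ev_rename {σ τ : Type} (f : σ → τ) (x : τ → Subalgebra.center k A)
    (P : MvPolynomial σ k) : ev x (rename f P) = ev (x ∘ f) P := by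
  simp [ev, aeval_rename]

theorem ev_mem_center {σ : Type} (x : σ → Subalgebra.center k A) (P : MvPolynomial σ k) :
    ev x P ∈ Subalgebra.center k A := (aeval x P).2

theorem ev_comm {σ : Type} (x : σ → Subalgebra.center k A) (P : MvPolynomial σ k) (a : A) :
    ev x P * a = a * ev x P :=
  (Subalgebra.mem_center_iff.1 (ev_mem_center x P) a).symm

end Ev

/-- No linear terms. -/
def NoLin {k : Type*} [CommSemiring k] {σ : Type} (P : MvPolynomial σ k) : Prop :=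
  ∀ j, P.coeff (Finsupp.single j 1) = 0

/-- The piece `S = k[x] ⊗ Λ(y)`, `D x_j = y Q_j(x)`, `D y = P(x)`, with a map `S → A` which is
bijective on `H^q` for `q ≤ m` and injective for `q = m + 1`. All `x_j` have degree
`2 w_j ≤ m`, `y` has degree `2 f + 1`. -/
structure Pre {k A : Type*} [Field k] [Ring A] [Algebra k A] (D : Dga k A) (m : ℕ) where
  σ : Type
  [fin : Fintype σ]
  [dec : DecidableEq σ]
  w : σ → ℕ
  w_pos : ∀ j, 1 ≤ w j
  w_le : ∀ j, 2 * w j ≤ m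
  x : σ → Subalgebra.center k A
  x_mem : ∀ j, (x j : A) ∈ D.deg (2 * w j)
  f : ℕ
  f_pos : 1 ≤ f
  y : A
  y_mem : y ∈ D.deg (2 * f + 1)
  P : MvPolynomial σ k
  P_hom : IsWeightedHomogeneous w P (f + 1)
  P_lin : NoLin P
  Q : σ → MvPolynomial σ k
  Q_hom : ∀ j, IsWeightedHomogeneous w (Q j) (w j - f)
  Q_zero : ∀ j, w j ≤ f → Q j = 0
  /-- `D² = 0` -/
  PQ : P = 0 ∨ ∀ j, Q j = 0
  d_x : ∀ j, D.d (x j) = y * ev x (Q j)
  d_y : D.d y = ev x P
  /-- injectivity in even degrees -/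
  injE : ∀ e, 2 * e ≤ m + 1 → ∀ R, IsWeightedHomogeneous w R e → mkDerivation k Q R = 0 →
    ev x R ∈ D.B (2 * e) → ∃ T, R = P * T
  /-- injectivity in odd degrees -/
  injO : ∀ e, 2 * e + 1 ≤ m + 1 → f ≤ e → ∀ R, IsWeightedHomogeneous w R (e - f) → P * R = 0 →
    y * ev x R ∈ D.B (2 * e + 1) → ∃ T, IsWeightedHomogeneous w T e ∧ R = mkDerivation k Q T
  /-- surjectivity in even degrees -/
  surjE : ∀ e, 2 * e ≤ m → ∀ z ∈ D.Z (2 * e), ∃ R, IsWeightedHomogeneous w R e ∧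
    mkDerivation k Q R = 0 ∧ z - ev x R ∈ D.B (2 * e)
  /-- surjectivity in odd degrees -/
  surjO : ∀ e, 2 * e + 1 ≤ m → ∀ z ∈ D.Z (2 * e + 1), z ∈ D.B (2 * e + 1) ∨
    (f ≤ e ∧ ∃ R, IsWeightedHomogeneous w R (e - f) ∧ P * R = 0 ∧
      z - y * ev x R ∈ D.B (2 * e + 1))

attribute [instance] Pre.fin Pre.dec

/-- The odd generator is real (degree at most `m`) or it is a dummy. -/
def Pre.Ok {k A : Type*} [Field k] [Ring A] [Algebra k A] {D : Dga k A} {m : ℕ}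
    (S : Pre D m) : Prop :=
  2 * S.f + 1 ≤ m ∨ (m + 1 ≤ S.f ∧ S.y = 0 ∧ S.P = 0 ∧ ∀ j, S.Q j = 0)

/-- **The output of V2**: the minimal model below the second odd generator `y₂` (of degree
`2 f₂ + 1`), and `y₂`: `d y₂ = P₂(x)`, and `(P₂, y₂)` is not a coboundary in the cone of `S → A`. -/
structure Two {k A : Type*} [Field k] [Ring A] [Algebra k A] (D : Dga k A) (f₂ : ℕ) extends
    Pre D (2 * f₂) where
  f_le : f ≤ f₂
  y₂ : A
  y₂_mem : y₂ ∈ D.deg (2 * f₂ + 1)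
  P₂ : MvPolynomial σ k
  P₂_hom : IsWeightedHomogeneous w P₂ (f₂ + 1)
  /-- `D² y₂ = 0` -/
  P₂_d : mkDerivation k Q P₂ = 0
  d_y₂ : D.d y₂ = ev x P₂
  /-- `y₂` is new -/
  new : ¬ ∃ R, IsWeightedHomogeneous w R (f₂ - f) ∧ P₂ = P * R ∧
    y₂ - y * ev x R ∈ D.B (2 * f₂ + 1)

/-- **Termination** (921): if there is no second odd generator in degrees `≤ m`, `m` large, then
the cohomology is generated by one class. `n` is the top degree. -/
def Termination.{u, v} : Prop := ∀ (k : Type u) (A : Type v) [Field k] [CharZero k] [Ring A]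
  [Algebra k A] (D : Dga k A) (n : ℕ), (1 : A) ≠ 0 → (∀ a ∈ D.Z 0, ∃ c : k, a = c • 1) →
  (∀ q, n < q → D.Z q ≤ D.B q) → ∀ m, n * (n + 1) + n + 1 ≤ m → ∀ S : Pre D m, S.Ok → D.Mono

end Vale.Agent.P216.V706
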