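import Vale.Agent.P216.V706.Dga

/-!
# P216-V, V2 (algebra): tools
-/

open MvPolynomial
open Finsupp (weight)

namespace Vale.Agent.P216.V706

/-- A finite basis of `U` modulo `N`. -/
theorem exists_basis_mod {k V : Type*} [Field k] [AddCommGroup V] [Module k V]
    (N U W : Submodule k V) [FiniteDimensional k W] (hU : U ≤ W ⊔ N) :
    ∃ (n : ℕ) (v : Fin n → V), (∀ i, v i ∈ U) ∧
      (∀ u ∈ U, ∃ c : Fin n → k, u - ∑ i, c i • v i ∈ N) ∧
      ∀ c : Fin n → k, ∑ i, c i • v i ∈ N → c = 0 := by
  classical
  set U' : Submodule k (V ⧸ N) := U.map N.mkQ with hU'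
  have h1 : U' ≤ W.map N.mkQ := by
    rintro _ ⟨u, hu, rfl⟩
    obtain ⟨a, ha, b, hb, rfl⟩ := Submodule.mem_sup.1 (hU hu)
    refine ⟨a, ha, ?_⟩
    simp [(Submodule.Quotient.mk_eq_zero N).2 hb]
  have hfW : FiniteDimensional k (W.map N.mkQ) := inferInstance
  have hf : FiniteDimensional k U' := Submodule.finiteDimensional_of_le h1
  let b := Module.finBasis k U'
  have hl : ∀ i, ∃ v ∈ U, N.mkQ v = (b i : V ⧸ N) := fun i => by
    obtain ⟨v, hv, h⟩ := (b i).2
    exact ⟨v, hv, h⟩
  choose v hv hvb using hl
  refine ⟨_, v, hv, fun u hu => ⟨b.repr ⟨N.mkQ u, Submodule.mem_map_of_mem hu⟩, ?_⟩, fun c hc => ?_⟩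
  · rw [← Submodule.Quotient.mk_eq_zero, ← Submodule.mkQ_apply, map_sub, map_sum]
    simp only [map_smul, hvb]
    have h2 := b.sum_repr ⟨N.mkQ u, Submodule.mem_map_of_mem hu⟩
    have h3 := congrArg (Subtype.val : U' → V ⧸ N) h2
    simp only [AddSubmonoidClass.coe_finsetSum, SetLike.val_smul] at h3
    rw [h3, sub_self]
  · rw [← Submodule.Quotient.mk_eq_zero, ← Submodule.mkQ_apply, map_sum] at hc
    simp only [map_smul, hvb] at hc
    have h4 : ∑ i, c i • b i = 0 := by
      apply Subtype.ext
      simpa using hc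
    have := Fintype.linearIndependent_iff.1 b.linearIndependent c h4
    exact funext this

/-! ### Weighted homogeneous polynomials -/

section Hom

variable {k : Type*} [Field k] {σ : Type} {w : σ → ℕ}

theorem hom_monomial_mul {e : ℕ} {R T : MvPolynomial σ k} {a b : ℕ}
    (hR : IsWeightedHomogeneous w R a) (hT : IsWeightedHomogeneous w T b) (h : a + b = e) :
    IsWeightedHomogeneous w (R * T) e := h ▸ hR.mul hT

/-- Renaming the variables preserves the weights. -/
theorem hom_rename {τ : Type} {w' : τ → ℕ} (g : σ → τ) (hw : ∀ j, w' (g j) = w j) {e : ℕ}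
    {R : MvPolynomial σ k} (hR : IsWeightedHomogeneous w R e) :
    IsWeightedHomogeneous w' (rename g R) e := by
  induction hR using IsWeightedHomogeneous.induction_on with
  | zero => simpa using isWeightedHomogeneous_zero k w' e
  | add p q hp hq h1 h2 => simpa using h1.add h2
  | monomial d r hr =>
    rw [rename_monomial]
    refine isWeightedHomogeneous_monomial _ _ _ ?_
    rw [← hr, Finsupp.weight_apply, Finsupp.weight_apply,
      Finsupp.sum_mapDomain_index (by simp) (by intros; simp [add_mul])]
    simp [hw]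

/-- The converse, for an injective renaming. -/
theorem hom_of_rename {τ : Type} {w' : τ → ℕ} (g : σ → τ) (hg : Function.Injective g)
    (hw : ∀ j, w' (g j) = w j) {e : ℕ} {R : MvPolynomial σ k}
    (hR : IsWeightedHomogeneous w' (rename g R) e) : IsWeightedHomogeneous w R e := by
  intro d hd
  have h1 : coeff (Finsupp.mapDomain g d) (rename g R) ≠ 0 := by
    rwa [coeff_rename_mapDomain g hg]
  rw [← hR h1, Finsupp.weight_apply, Finsupp.weight_apply,
    Finsupp.sum_mapDomain_index (by simp) (by intros; simp [add_mul])]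
  simp [hw]

variable {τ : Type} {w₂ : τ → ℕ}

/-- Polynomials of small weight do not contain the new variables. -/
theorem hom_inl {e : ℕ} (h₂ : ∀ t, e < w₂ t) {R : MvPolynomial (σ ⊕ τ) k}
    (hR : IsWeightedHomogeneous (Sum.elim w w₂) R e) :
    ∃ T : MvPolynomial σ k, R = rename Sum.inl T ∧ IsWeightedHomogeneous w T e := by
  classical
  obtain ⟨T, rfl⟩ := exists_rename_eq_of_vars_subset_range R (Sum.inl : σ → σ ⊕ τ)
    Sum.inl_injective (by
      intro i hi
      rw [Finset.mem_coe, mem_vars_iff_mem_support] at hi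
      obtain ⟨d, hd, hi⟩ := hi
      rcases i with i | t
      · exact ⟨i, rfl⟩
      · exfalso
        have h1 := hR (mem_support_iff.1 hd)
        have h2 : Sum.elim w w₂ (Sum.inr t) ≤ Finsupp.weight (Sum.elim w w₂) d :=
          Finsupp.le_weight_of_ne_zero' _ (Finsupp.mem_support_iff.1 hi)
        rw [h1] at h2
        have := h₂ t
        simp only [Sum.elim_inr] at h2
        omega)
  exact ⟨T, rfl, hom_of_rename _ Sum.inl_injective (fun _ => rfl) hR⟩

theorem eq_single {ι : Type} {v : ι → ℕ} (hv : ∀ i, 1 ≤ v i) {d : ι →₀ ℕ} {i : ι} (hi : d i ≠ 0)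
    (h : Finsupp.weight v d = v i) : d = Finsupp.single i 1 := by
  have h2 := Finsupp.weight_sub_single_add (w := v) hi
  have h3 : Finsupp.weight v (d - Finsupp.single i 1) = 0 := by omega
  have h4 : d - Finsupp.single i 1 = 0 := by
    ext l
    by_contra h5
    have h6 := Finsupp.le_weight_of_ne_zero' v (f := d - Finsupp.single i 1) (s := l) h5
    have := hv l
    omega
  have := Finsupp.sub_add_single_one_cancel hi
  rw [h4, zero_add] at this
  exact this.symm

/-- the linear part in the new variables -/
noncomputable def lin {ι : Type} [Fintype τ] (g : τ → ι) (c : τ → k) : MvPolynomial ι k :=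
  ∑ t, C (c t) * X (g t)

theorem coeff_lin {ι : Type} [Fintype τ] {g : τ → ι} (hg : Function.Injective g) (c : τ → k)
    (t : τ) : coeff (Finsupp.single (g t) 1) (lin g c) = c t := by
  classical
  rw [lin, coeff_sum, Finset.sum_eq_single t]
  · simp
  · intro b _ hb
    rw [coeff_C_mul, coeff_X, if_neg, mul_zero]
    intro h
    exact hb (hg ((Finsupp.single_left_inj one_ne_zero).1 h))
  · simp

theorem hom_lin {ι : Type} [Fintype τ] {v : ι → ℕ} {g : τ → ι} {e : ℕ} (h : ∀ t, v (g t) = e)
    (c : τ → k) : IsWeightedHomogeneous v (lin g c) e := by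
  refine IsWeightedHomogeneous.sum _ _ _ fun t _ => IsWeightedHomogeneous.C_mul ?_ _
  have := isWeightedHomogeneous_X k v (g t)
  rwa [h t] at this

/-- In the weight of the new variables they occur only linearly. -/
theorem hom_top [Fintype τ] (hw : ∀ j, 1 ≤ w j) {e : ℕ} (he : 1 ≤ e) (h₂ : ∀ t, w₂ t = e)
    {R : MvPolynomial (σ ⊕ τ) k} (hR : IsWeightedHomogeneous (Sum.elim w w₂) R e) :
    ∃ (T : MvPolynomial σ k) (c : τ → k), R = rename Sum.inl T + lin Sum.inr c ∧
      IsWeightedHomogeneous w T e := by
  classical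
  have hv : ∀ i, 1 ≤ Sum.elim w w₂ i := by
    rintro (i | i)
    · exact hw i
    · simpa [h₂ i] using he
  obtain ⟨c, hc⟩ : ∃ c : τ → k, ∀ t, c t = coeff (Finsupp.single (Sum.inr t) 1) R :=
    ⟨_, fun _ => rfl⟩
  have hR' : IsWeightedHomogeneous (Sum.elim w w₂) (R - lin Sum.inr c) e :=
    hR.sub (hom_lin (fun t => by simpa using h₂ t) c)
  have hvars : ((R - lin Sum.inr c).vars : Set (σ ⊕ τ)) ⊆ Set.range Sum.inl := by
    intro i hi
    rw [Finset.mem_coe, mem_vars_iff_mem_support] at hi
    obtain ⟨d, hd, hi⟩ := hi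
    rcases i with i | t
    · exact ⟨i, rfl⟩
    · exfalso
      have h0 := mem_support_iff.1 hd
      have h1 := hR' h0
      have h5 : d = Finsupp.single (Sum.inr t) 1 := eq_single hv (Finsupp.mem_support_iff.1 hi)
        (by rw [h1]; simpa using (h₂ t).symm)
      apply h0
      rw [h5, coeff_sub, coeff_lin Sum.inr_injective, hc, sub_self]
  obtain ⟨T, hT⟩ := exists_rename_eq_of_vars_subset_range _ (Sum.inl : σ → σ ⊕ τ)
    Sum.inl_injective hvars
  refine ⟨T, c, by rw [hT, sub_add_cancel], hom_of_rename (w' := Sum.elim w w₂) _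
    Sum.inl_injective (fun _ => rfl) ?_⟩
  rw [hT]
  exact hR'

/-- weight `0` means constant -/
theorem hom_zero (hw : ∀ j, 1 ≤ w j) {R : MvPolynomial σ k}
    (hR : IsWeightedHomogeneous w R 0) : ∃ c, R = C c := by
  classical
  refine ⟨coeff 0 R, hR.eq_monomial_of_unique_weight fun d hd => ?_⟩
  ext i
  by_contra h
  have h1 := Finsupp.le_weight_of_ne_zero' w (f := d) (s := i) h
  have := hw i
  omega

/-- finiteness -/
theorem finite_hom [Finite σ] (hw : ∀ j, 1 ≤ w j) (e : ℕ) :
    FiniteDimensional k (weightedHomogeneousSubmodule k w e) :=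
  Module.Finite.iff_fg.2 (weightedHomogeneousSubmodule_fg k w (fun j => by
    have := hw j
    omega) e)

/-- Derivations and renaming. -/
theorem der_rename {τ : Type} (g : σ → τ) (Q : σ → MvPolynomial σ k) (Q' : τ → MvPolynomial τ k)
    (h : ∀ j, Q' (g j) = rename g (Q j)) (R : MvPolynomial σ k) :
    mkDerivation k Q' (rename g R) = rename g (mkDerivation k Q R) := by
  induction R using MvPolynomial.induction_on with
  | C a => simp
  | add p q hp hq => simp [hp, hq]
  | mul_X p i hp =>
    simp only [map_mul, rename_X, Derivation.leibniz, hp, mkDerivation_X, h, smul_eq_mul, map_add]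

/-- The weight of a derivative. -/
theorem hom_der {f : ℕ} {Q : σ → MvPolynomial σ k}
    (hQ : ∀ j, IsWeightedHomogeneous w (Q j) (w j - f)) (hQ0 : ∀ j, w j ≤ f → Q j = 0) {e : ℕ}
    {R : MvPolynomial σ k} (hR : IsWeightedHomogeneous w R e) :
    IsWeightedHomogeneous w (mkDerivation k Q R) (e - f) := by
  classical
  induction hR using IsWeightedHomogeneous.induction_on with
  | zero => simpa using isWeightedHomogeneous_zero k w (e - f)
  | add p q hp hq h1 h2 => simpa using h1.add h2
  | monomial d r hr =>
    rw [mkDerivation_monomial]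
    refine Submodule.smul_mem (weightedHomogeneousSubmodule k w (e - f)) r ?_
    refine Submodule.sum_mem _ fun i hi => ?_
    have hi' := Finsupp.mem_support_iff.1 hi
    simp only [mem_weightedHomogeneousSubmodule, smul_eq_mul]
    rcases le_total (w i) f with h | h
    · rw [hQ0 i h, mul_zero]
      exact isWeightedHomogeneous_zero k w _
    · have h1 := Finsupp.weight_sub_single_add (w := w) hi'
      refine hom_monomial_mul (isWeightedHomogeneous_monomial w _ _ rfl) (hQ i) ?_
      omega

end Hom

/-! ### Evaluation in a dga -/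

namespace Dga

variable {k A : Type*} [Field k] [Ring A] [Algebra k A] (D : Dga k A)

theorem d_one : D.d 1 = 0 := by
  have h := D.d_mul 1 1
  rw [one_mul, mul_one, map_one D.sg, one_mul] at h
  exact left_eq_add.1 h

theorem d_algebraMap (c : k) : D.d (algebraMap k A c) = 0 := by
  rw [Algebra.algebraMap_eq_smul_one, map_smul, d_one, smul_zero]

variable {σ : Type} {w : σ → ℕ} {x : σ → Subalgebra.center k A}

theorem sg_ev (hx : ∀ j, (x j : A) ∈ D.deg (2 * w j)) (R : MvPolynomial σ k) :
    D.sg (ev x R) = ev x R := by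
  induction R using MvPolynomial.induction_on with
  | C a => simp
  | add p q hp hq => simp [hp, hq]
  | mul_X p i hp =>
    rw [map_mul, map_mul, hp, ev_X, D.sg_deg (hx i), pow_mul]
    simp

theorem ev_mem (hx : ∀ j, (x j : A) ∈ D.deg (2 * w j)) {e : ℕ} {R : MvPolynomial σ k}
    (hR : IsWeightedHomogeneous w R e) : ev x R ∈ D.deg (2 * e) := by
  induction hR using IsWeightedHomogeneous.induction_on with
  | zero => simp
  | add p q hp hq h1 h2 => simpa using Submodule.add_mem _ h1 h2
  | monomial d r hr =>
    have key : ∀ d : σ →₀ ℕ, ev x (monomial d (1 : k)) ∈ D.deg (2 * Finsupp.weight w d) := by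
      intro d
      induction d using Finsupp.induction with
      | zero => simpa using D.one_mem
      | single_add i b f hi hb ih =>
        have h1 : monomial (Finsupp.single i b + f) (1 : k) = X i ^ b * monomial f 1 := by
          rw [X_pow_eq_monomial, monomial_mul, one_mul]
        rw [h1, map_mul, map_pow, ev_X, map_add, Finsupp.weight_single, mul_add]
        refine D.mul_mem ?_ ih
        have h2 : ∀ b : ℕ, (x i : A) ^ b ∈ D.deg (2 * (b * w i)) := by
          intro b
          induction b with
          | zero => simpa using D.one_mem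
          | succ b ihb =>
            rw [pow_succ]
            have h3 : 2 * ((b + 1) * w i) = 2 * (b * w i) + 2 * w i := by ring
            rw [h3]
            exact D.mul_mem ihb (hx i)
        simpa using h2 b
    have h1 : (monomial d r : MvPolynomial σ k) = r • monomial d 1 := by
      rw [smul_monomial, smul_eq_mul, mul_one]
    rw [h1, map_smul, ← hr]
    exact Submodule.smul_mem _ _ (key d)

/-- **The chain rule.** -/
theorem d_ev (hx : ∀ j, (x j : A) ∈ D.deg (2 * w j)) {y : A} {Q : σ → MvPolynomial σ k}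
    (hd : ∀ j, D.d (x j) = y * ev x (Q j)) (R : MvPolynomial σ k) :
    D.d (ev x R) = y * ev x (mkDerivation k Q R) := by
  induction R using MvPolynomial.induction_on with
  | C a => simp [D.d_algebraMap]
  | add p q hp hq => simp [hp, hq, mul_add]
  | mul_X p i hp =>
    rw [map_mul, ev_X, D.d_mul, hp, D.sg_ev hx, hd, Derivation.leibniz, mkDerivation_X]
    simp only [smul_eq_mul, map_add, map_mul, ev_X, mul_add]
    rw [add_comm]
    congr 1
    · rw [← mul_assoc, ev_comm x p y, mul_assoc]
    · rw [mul_assoc, ev_comm x _ (x i : A)]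

end Dga

end Vale.Agent.P216.V706
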