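import Vale.Agent.P216.V706.Step
import Vale.Agent.P216.V921.Term

/-!
# P216-V, V2 (algebra): the second odd generator
-/

open MvPolynomial

namespace Vale.Agent.P216.V706

variable {k A : Type*} [Field k] [Ring A] [Algebra k A] {D : Dga k A}

/-- **V2.** A simply connected commutative dga with finite-dimensional cohomology which vanishes
in degrees above `n` and is not generated by one class: its minimal model has a second odd
generator. -/
theorem two_of [CharZero k] (h1 : (1 : A) ≠ 0) (hZ0 : ∀ a ∈ D.Z 0, ∃ c : k, a = c • 1)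
    (hZ1 : D.Z 1 ≤ D.B 1) (hF : ∀ q, D.Fin q) {n : ℕ} (hn : ∀ q, n < q → D.Z q ≤ D.B q)
    (hM : ¬ D.Mono) : ∃ f₂, Nonempty (Two D f₂) := by
  rcases stages h1 hZ0 hZ1 hF (n * (n + 1) + n + 1) (by omega) with ⟨S, hS⟩ | h
  · exact absurd (V921.termination k A D n h1 hZ0 hn _ le_rfl S hS) hM
  · exact h

/-! ### Homogeneous factors -/

theorem comp_mul {σ : Type*} {w : σ → ℕ} {P : MvPolynomial σ k} {p : ℕ}
    (hP : IsWeightedHomogeneous w P p) (e : ℕ) (T : MvPolynomial σ k) :
    weightedHomogeneousComponent w e (P * T) =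
      if p ≤ e then P * weightedHomogeneousComponent w (e - p) T else 0 := by
  classical
  induction T using MvPolynomial.induction_on' with
  | monomial u a =>
    have h1 : IsWeightedHomogeneous w (monomial u a) (Finsupp.weight w u) :=
      isWeightedHomogeneous_monomial w u a rfl
    rw [weightedHomogeneousComponent_of_mem (hP.mul h1), weightedHomogeneousComponent_of_mem h1]
    split_ifs <;> first | rfl | omega | simp
  | add p q hp hq =>
    rw [mul_add, map_add, hp, hq]
    split_ifs
    · rw [map_add, mul_add]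
    · rw [add_zero]

theorem hom_factor {σ : Type*} {w : σ → ℕ} {P R T : MvPolynomial σ k} {p e : ℕ}
    (hP : IsWeightedHomogeneous w P p) (hR : IsWeightedHomogeneous w R e) (h : R = P * T) :
    (e < p ∧ R = 0) ∨ (p ≤ e ∧ ∃ T', IsWeightedHomogeneous w T' (e - p) ∧ R = P * T') := by
  classical
  have h1 : R = weightedHomogeneousComponent w e R := by
    rw [weightedHomogeneousComponent_of_mem hR, if_pos rfl]
  rw [h, comp_mul hP, ← h] at h1
  rcases Nat.lt_or_ge e p with h2 | h2
  · rw [if_neg (by omega)] at h1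
    exact Or.inl ⟨h2, h1⟩
  · rw [if_pos h2] at h1
    exact Or.inr ⟨h2, _, weightedHomogeneousComponent_isWeightedHomogeneous _ _, h1⟩

/-- In the injectivity statement in even degrees the factor is homogeneous. -/
theorem Pre.injE' {m : ℕ} (S : Pre D m) {e : ℕ} (he : 2 * e ≤ m + 1) {R : MvPolynomial S.σ k}
    (hR : IsWeightedHomogeneous S.w R e) (h0 : mkDerivation k S.Q R = 0)
    (hB : ev S.x R ∈ D.B (2 * e)) :
    (e < S.f + 1 ∧ R = 0) ∨
      (S.f + 1 ≤ e ∧ ∃ T, IsWeightedHomogeneous S.w T (e - (S.f + 1)) ∧ R = S.P * T) := by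
  obtain ⟨T, hT⟩ := S.injE e he R hR h0 hB
  exact hom_factor S.P_hom hR hT

end Vale.Agent.P216.V706
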