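import Vale.Agent.P216.V706.Tools

/-!
# P216-V, V2 (algebra): the steps `m → m + 1`
-/

open MvPolynomial

namespace Vale.Agent.P216.V706

variable {k A : Type*} [Field k] [Ring A] [Algebra k A] {D : Dga k A}

/-! ### The dummy -/

/-- A dummy odd generator can be moved up. -/
noncomputable def Pre.bump {m : ℕ} (S : Pre D m) (h1 : m + 1 ≤ S.f) (h3 : S.P = 0)
    (h4 : ∀ j, S.Q j = 0) (N : ℕ) (hN : m + 1 ≤ N) : Pre D m where
  σ := S.σ
  w := S.w
  w_pos := S.w_pos
  w_le := S.w_le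
  x := S.x
  x_mem := S.x_mem
  f := N
  f_pos := by omega
  y := 0
  y_mem := Submodule.zero_mem _
  P := 0
  P_hom := isWeightedHomogeneous_zero _ _ _
  P_lin := fun j => by simp
  Q := fun _ => 0
  Q_hom := fun j => isWeightedHomogeneous_zero _ _ _
  Q_zero := fun _ _ => rfl
  PQ := Or.inl rfl
  d_x := fun j => by rw [S.d_x, h4]; simp
  d_y := by simp
  injE := fun e he R hR h0 hB => by
    have hQ : S.Q = fun _ => 0 := funext h4
    obtain ⟨T, hT⟩ := S.injE e he R hR (by rw [hQ]; exact h0) hB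
    exact ⟨T, by rw [hT, h3]⟩
  injO := fun e he h => by omega
  surjE := fun e he z hz => by
    have hQ : S.Q = fun _ => 0 := funext h4
    obtain ⟨R, hR, h0, hB⟩ := S.surjE e he z hz
    exact ⟨R, hR, by rw [hQ] at h0; exact h0, hB⟩
  surjO := fun e he z hz => by
    rcases S.surjO e he z hz with h | ⟨h, -⟩
    · exact Or.inl h
    · omega

/-! ### The even step: new even generators -/

section AddVars

variable {m : ℕ} (S : Pre D m) {e₁ : ℕ} {τ : Type} [Fintype τ]

theorem lin_rename (c : τ → k) (q : τ → MvPolynomial S.σ k) (T : MvPolynomial S.σ k) :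
    mkDerivation k (Sum.elim (fun j => rename Sum.inl (S.Q j))
      (fun t => rename Sum.inl (q t)) : S.σ ⊕ τ → MvPolynomial (S.σ ⊕ τ) k)
      (rename Sum.inl T + lin Sum.inr c) =
    rename Sum.inl (mkDerivation k S.Q T + ∑ t, c t • q t) := by
  rw [map_add, map_add, der_rename Sum.inl S.Q _ (fun j => rfl)]
  congr 1
  rw [lin, map_sum, map_sum]
  refine Finset.sum_congr rfl fun t _ => ?_
  rw [C_mul', Derivation.map_smul, map_smul, mkDerivation_X]
  rfl

theorem hom_add_lin (c : τ → k) {w : S.σ → ℕ} {T : MvPolynomial S.σ k}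
    (hT : IsWeightedHomogeneous w T e₁) :
    IsWeightedHomogeneous (Sum.elim w (fun _ : τ => e₁)) (rename Sum.inl T + lin Sum.inr c)
      e₁ :=
  (hom_rename Sum.inl (fun _ => rfl) hT).add (hom_lin (g := Sum.inr) (fun _ => rfl) c)

theorem ev_lin_rename (v : τ → Subalgebra.center k A) (c : τ → k) (T : MvPolynomial S.σ k) :
    ev (Sum.elim S.x v) (rename Sum.inl T + lin Sum.inr c) =
      ev S.x T + ∑ t, c t • (v t : A) := by
  rw [map_add, ev_rename, lin, map_sum]
  congr 1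
  refine Finset.sum_congr rfl fun t _ => ?_
  rw [C_mul', map_smul, ev_X]
  rfl

/-- New even generators `v_t` of degree `2 e₁ = m + 1`, `d v_t = y q_t`. -/
noncomputable def Pre.addVars [DecidableEq τ] (hm : m + 1 = 2 * e₁) (v : τ → Subalgebra.center k A)
    (q : τ → MvPolynomial S.σ k) (hv : ∀ t, (v t : A) ∈ D.deg (2 * e₁))
    (hq : ∀ t, IsWeightedHomogeneous S.w (q t) (e₁ - S.f)) (hq0 : e₁ ≤ S.f → ∀ t, q t = 0)
    (hd : ∀ t, D.d (v t) = S.y * ev S.x (q t)) (hPq : S.P = 0 ∨ ∀ t, q t = 0)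
    (inj : ∀ (c : τ → k) (T : MvPolynomial S.σ k), IsWeightedHomogeneous S.w T e₁ →
      mkDerivation k S.Q T + ∑ t, c t • q t = 0 →
      ev S.x T + ∑ t, c t • (v t : A) ∈ D.B (2 * e₁) → c = 0 ∧ ∃ T', T = S.P * T')
    (surj : ∀ z ∈ D.Z (2 * e₁), ∃ (c : τ → k) (T : MvPolynomial S.σ k),
      IsWeightedHomogeneous S.w T e₁ ∧ mkDerivation k S.Q T + ∑ t, c t • q t = 0 ∧
      z - (ev S.x T + ∑ t, c t • (v t : A)) ∈ D.B (2 * e₁))
    (injq : S.f ≤ e₁ → ∀ R, IsWeightedHomogeneous S.w R (e₁ - S.f) → S.P * R = 0 →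
      S.y * ev S.x R ∈ D.B (2 * e₁ + 1) → ∃ (c : τ → k) (T : MvPolynomial S.σ k),
        IsWeightedHomogeneous S.w T e₁ ∧ R = mkDerivation k S.Q T + ∑ t, c t • q t) :
    Pre D (m + 1) where
  σ := S.σ ⊕ τ
  w := Sum.elim S.w (fun _ => e₁)
  w_pos := by
    rintro (j | t)
    · exact S.w_pos j
    · simp only [Sum.elim_inr]
      omega
  w_le := by
    rintro (j | t)
    · have := S.w_le j
      simp only [Sum.elim_inl]
      omega
    · simp only [Sum.elim_inr]
      omega
  x := Sum.elim S.x v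
  x_mem := by
    rintro (j | t)
    · exact S.x_mem j
    · exact hv t
  f := S.f
  f_pos := S.f_pos
  y := S.y
  y_mem := S.y_mem
  P := rename Sum.inl S.P
  P_hom := hom_rename _ (fun _ => rfl) S.P_hom
  P_lin := by
    rintro (j | t)
    · have h1 : Finsupp.single (Sum.inl j : S.σ ⊕ τ) 1 =
          Finsupp.mapDomain Sum.inl (Finsupp.single j 1) := by simp
      rw [h1, coeff_rename_mapDomain _ Sum.inl_injective]
      exact S.P_lin j
    · refine coeff_rename_eq_zero _ _ _ fun u hu => ?_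
      exfalso
      have h1 := DFunLike.congr_fun hu (Sum.inr t)
      rw [Finsupp.mapDomain_of_notMem_range _ _ (by simp)] at h1
      simp at h1
  Q := Sum.elim (fun j => rename Sum.inl (S.Q j)) (fun t => rename Sum.inl (q t))
  Q_hom := by
    rintro (j | t)
    · exact hom_rename _ (fun _ => rfl) (S.Q_hom j)
    · exact hom_rename _ (fun _ => rfl) (hq t)
  Q_zero := by
    rintro (j | t) h
    · simp only [Sum.elim_inl] at h ⊢
      rw [S.Q_zero j h, map_zero]
    · simp only [Sum.elim_inr] at h ⊢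
      rw [hq0 h, map_zero]
  PQ := by
    rcases hPq with h | h
    · exact Or.inl (by rw [h, map_zero])
    rcases S.PQ with h' | h'
    · exact Or.inl (by rw [h', map_zero])
    refine Or.inr ?_
    rintro (j | t)
    · simp [h']
    · simp [h]
  d_x := by
    rintro (j | t)
    · simp only [Sum.elim_inl]
      rw [ev_rename]
      exact S.d_x j
    · simp only [Sum.elim_inr]
      rw [ev_rename]
      exact hd t
  d_y := by
    rw [ev_rename]
    exact S.d_y
  injE := fun e he R hR h0 hB => by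
    rcases Nat.lt_or_ge e e₁ with h | h
    · obtain ⟨T, rfl, hT⟩ := hom_inl (fun _ => h) hR
      rw [der_rename Sum.inl S.Q _ (fun j => rfl)] at h0
      have h1 := rename_injective _ Sum.inl_injective (h0.trans (map_zero _).symm)
      rw [ev_rename] at hB
      obtain ⟨T', hT'⟩ := S.injE e (by omega) T hT h1 hB
      exact ⟨rename Sum.inl T', by rw [hT', map_mul]⟩
    · obtain rfl : e = e₁ := by omega
      obtain ⟨T, c, rfl, hT⟩ := hom_top S.w_pos (by omega) (fun _ => rfl) hR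
      rw [lin_rename] at h0
      have h1 := rename_injective _ Sum.inl_injective (h0.trans (map_zero _).symm)
      rw [ev_lin_rename] at hB
      obtain ⟨rfl, T', hT'⟩ := inj c T hT h1 hB
      refine ⟨rename Sum.inl T', ?_⟩
      rw [hT', map_mul]
      simp [lin]
  injO := fun e he hf R hR h0 hB => by
    have hf1 := S.f_pos
    obtain ⟨R, rfl, hR'⟩ := hom_inl (fun _ => by omega) hR
    rw [← map_mul] at h0
    have h1 := rename_injective _ Sum.inl_injective (h0.trans (map_zero _).symm)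
    rw [ev_rename] at hB
    rcases Nat.lt_or_ge e e₁ with h | h
    · obtain ⟨T, hT, hT'⟩ := S.injO e (by omega) hf R hR' h1 hB
      refine ⟨rename Sum.inl T, hom_rename _ (fun _ => rfl) hT, ?_⟩
      rw [der_rename Sum.inl S.Q _ (fun j => rfl), hT']
    · obtain rfl : e = e₁ := by omega
      obtain ⟨c, T, hT, hT'⟩ := injq hf R hR' h1 hB
      refine ⟨rename Sum.inl T + lin Sum.inr c,
        hom_add_lin S c hT, ?_⟩
      rw [lin_rename, ← hT']
  surjE := fun e he z hz => by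
    rcases Nat.lt_or_ge e e₁ with h | h
    · obtain ⟨R, hR, h0, hB⟩ := S.surjE e (by omega) z hz
      refine ⟨rename Sum.inl R, hom_rename _ (fun _ => rfl) hR, ?_, ?_⟩
      · rw [der_rename Sum.inl S.Q _ (fun j => rfl), h0, map_zero]
      · rw [ev_rename]
        exact hB
    · obtain rfl : e = e₁ := by omega
      obtain ⟨c, T, hT, h0, hB⟩ := surj z hz
      refine ⟨rename Sum.inl T + lin Sum.inr c,
        hom_add_lin S c hT, ?_, ?_⟩
      · rw [lin_rename, h0, map_zero]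
      · rw [ev_lin_rename]
        exact hB
  surjO := fun e he z hz => by
    rcases S.surjO e (by omega) z hz with h | ⟨hf, R, hR, h0, hB⟩
    · exact Or.inl h
    · refine Or.inr ⟨hf, rename Sum.inl R, hom_rename _ (fun _ => rfl) hR, ?_, ?_⟩
      · rw [← map_mul, h0, map_zero]
      · rw [ev_rename]
        exact hB

end AddVars

/-- `H^q(A)` is finite-dimensional. -/
def Dga.Fin (D : Dga k A) (q : ℕ) : Prop :=
  ∃ W : Submodule k A, FiniteDimensional k W ∧ D.Z q ≤ W ⊔ D.B q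

theorem exists_q {m : ℕ} (S : Pre D m) (e₁ : ℕ) :
    ∃ (n : ℕ) (q : Fin n → MvPolynomial S.σ k),
      (∀ t, IsWeightedHomogeneous S.w (q t) (e₁ - S.f) ∧ S.P * q t = 0 ∧
        S.y * ev S.x (q t) ∈ D.B (2 * e₁ + 1)) ∧
      (∀ R, IsWeightedHomogeneous S.w R (e₁ - S.f) → S.P * R = 0 →
        S.y * ev S.x R ∈ D.B (2 * e₁ + 1) → ∃ (c : Fin n → k) (T : MvPolynomial S.σ k),
        IsWeightedHomogeneous S.w T e₁ ∧ R = mkDerivation k S.Q T + ∑ t, c t • q t) ∧
      ∀ (c : Fin n → k) (T : MvPolynomial S.σ k), IsWeightedHomogeneous S.w T e₁ →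
        mkDerivation k S.Q T + ∑ t, c t • q t = 0 → c = 0 := by
  let H := weightedHomogeneousSubmodule k S.w (e₁ - S.f)
  let N : Submodule k (MvPolynomial S.σ k) :=
    (weightedHomogeneousSubmodule k S.w e₁).map (mkDerivation k S.Q).toLinearMap
  let U : Submodule k (MvPolynomial S.σ k) := H ⊓ (LinearMap.ker (LinearMap.mulLeft k S.P) ⊓
    (D.B (2 * e₁ + 1)).comap ((LinearMap.mulLeft k S.y) ∘ₗ (ev S.x).toLinearMap))
  have : FiniteDimensional k H := finite_hom S.w_pos _
  obtain ⟨n, q, h1, h2, h3⟩ := exists_basis_mod N U H (inf_le_left.trans le_sup_left)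
  refine ⟨n, q, fun t => ?_, fun R hR h0 hB => ?_, fun c T hT h0 => ?_⟩
  · obtain ⟨h4, h5, h6⟩ := h1 t
    exact ⟨h4, h5, h6⟩
  · obtain ⟨c, T, hT, hT'⟩ := h2 R ⟨hR, h0, hB⟩
    refine ⟨c, T, hT, ?_⟩
    change mkDerivation k S.Q T = _ at hT'
    rw [hT', sub_add_cancel]
  · refine h3 c ⟨-T, ?_, ?_⟩
    · exact Submodule.neg_mem _ hT
    · change mkDerivation k S.Q (-T) = _
      rw [map_neg, eq_comm, ← sub_eq_zero, sub_neg_eq_add, add_comm, h0]

theorem exists_z {m : ℕ} (S : Pre D m) {e₁ : ℕ} (hm : m + 1 = 2 * e₁) (hF : D.Fin (2 * e₁)) :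
    ∃ (n : ℕ) (z : Fin n → A), (∀ t, z t ∈ D.Z (2 * e₁)) ∧
      (∀ a ∈ D.Z (2 * e₁), ∃ (c : Fin n → k) (T : MvPolynomial S.σ k),
        IsWeightedHomogeneous S.w T e₁ ∧ mkDerivation k S.Q T = 0 ∧
        a - (ev S.x T + ∑ t, c t • z t) ∈ D.B (2 * e₁)) ∧
      ∀ (c : Fin n → k) (T : MvPolynomial S.σ k), IsWeightedHomogeneous S.w T e₁ →
        mkDerivation k S.Q T = 0 → ev S.x T + ∑ t, c t • z t ∈ D.B (2 * e₁) →
        c = 0 ∧ ∃ T', T = S.P * T' := by
  obtain ⟨W, hW, hWB⟩ := hF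
  let K : Submodule k (MvPolynomial S.σ k) := weightedHomogeneousSubmodule k S.w e₁ ⊓
    LinearMap.ker (mkDerivation k S.Q).toLinearMap
  let N : Submodule k A := K.map (ev S.x).toLinearMap ⊔ D.B (2 * e₁)
  obtain ⟨n, z, h1, h2, h3⟩ := exists_basis_mod N (D.Z (2 * e₁)) W
    (hWB.trans (sup_le_sup_left le_sup_right _))
  refine ⟨n, z, h1, fun a ha => ?_, fun c T hT h0 hB => ?_⟩
  · obtain ⟨c, hc⟩ := h2 a ha
    obtain ⟨b₁, ⟨T, ⟨hT, hT0⟩, rfl⟩, b₂, hb₂, h⟩ := Submodule.mem_sup.1 hc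
    refine ⟨c, T, hT, hT0, ?_⟩
    change ev S.x T + b₂ = _ at h
    rw [add_comm, ← sub_sub, ← h, add_sub_cancel_left]
    exact hb₂
  · have hc : c = 0 := by
      refine h3 c (Submodule.mem_sup.2 ⟨ev S.x (-T), ⟨-T, Submodule.neg_mem _ ⟨hT, h0⟩, rfl⟩, _,
        hB, ?_⟩)
      rw [map_neg, neg_add_cancel_left]
    refine ⟨hc, S.injE e₁ (by omega) T hT h0 ?_⟩
    simpa [hc] using hB

/-- **The even step.** -/
theorem step_even {m : ℕ} (S : Pre D m) {e₁ : ℕ} (hm : m + 1 = 2 * e₁) (hS : S.f ≠ e₁)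
    (hF : D.Fin (2 * e₁)) : ∃ S' : Pre D (m + 1), S'.f = S.f ∧ S'.y = S.y ∧
      (S.P = 0 → S'.P = 0) ∧ ((∀ j, S.Q j = 0) → e₁ ≤ S.f → ∀ j, S'.Q j = 0) := by
  classical
  obtain ⟨n₁, z, hz1, hz2, hz3⟩ := exists_z S hm hF
  -- the generators with `d u = y q`
  obtain ⟨n₂, q, hq1, hq2, hq3, hq4⟩ : ∃ (n : ℕ) (q : Fin n → MvPolynomial S.σ k),
      (∀ t, IsWeightedHomogeneous S.w (q t) (e₁ - S.f) ∧ S.P * q t = 0 ∧
        S.y * ev S.x (q t) ∈ D.B (2 * e₁ + 1)) ∧
      (S.f ≤ e₁ → ∀ R, IsWeightedHomogeneous S.w R (e₁ - S.f) → S.P * R = 0 →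
        S.y * ev S.x R ∈ D.B (2 * e₁ + 1) → ∃ (c : Fin n → k) (T : MvPolynomial S.σ k),
        IsWeightedHomogeneous S.w T e₁ ∧ R = mkDerivation k S.Q T + ∑ t, c t • q t) ∧
      (∀ (c : Fin n → k) (T : MvPolynomial S.σ k), IsWeightedHomogeneous S.w T e₁ →
        mkDerivation k S.Q T + ∑ t, c t • q t = 0 → c = 0) ∧ (e₁ ≤ S.f → IsEmpty (Fin n)) := by
    rcases Nat.lt_or_ge e₁ S.f with h | h
    · refine ⟨0, Fin.elim0, fun t => t.elim0, fun h' => by omega, fun c T _ _ => ?_, fun _ =>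
        inferInstance⟩
      exact funext fun t => t.elim0
    · obtain ⟨n, q, h1, h2, h3⟩ := exists_q S e₁
      exact ⟨n, q, h1, fun _ => h2, h3, fun h' => absurd (le_antisymm h h') hS⟩
  have hu : ∀ t, ∃ u ∈ D.deg (2 * e₁), D.d u = S.y * ev S.x (q t) := fun t =>
    D.mem_B_succ.1 (hq1 t).2.2
  choose u hu1 hu2 using hu
  let v : Fin n₁ ⊕ Fin n₂ → Subalgebra.center k A := Sum.elim
    (fun t => ⟨z t, D.mem_center (D.mem_Z.1 (hz1 t)).1⟩) (fun t => ⟨u t, D.mem_center (hu1 t)⟩)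
  let q' : Fin n₁ ⊕ Fin n₂ → MvPolynomial S.σ k := Sum.elim (fun _ => 0) q
  have hsq : ∀ c : Fin n₁ ⊕ Fin n₂ → k, ∑ t, c t • q' t = ∑ t, c (Sum.inr t) • q t := by
    intro c
    rw [Fintype.sum_sum_type]
    simp [q']
  have hsv : ∀ c : Fin n₁ ⊕ Fin n₂ → k, ∑ t, c t • (v t : A) =
      ∑ t, c (Sum.inl t) • z t + ∑ t, c (Sum.inr t) • u t := by
    intro c
    rw [Fintype.sum_sum_type]
    rfl
  refine ⟨S.addVars hm v q' ?_ ?_ ?_ ?_ ?_ ?_ ?_ ?_, rfl, rfl, fun h => ?_, fun h1 h2 => ?_⟩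
  · rintro (t | t)
    · exact (D.mem_Z.1 (hz1 t)).1
    · exact hu1 t
  · rintro (t | t)
    · exact isWeightedHomogeneous_zero _ _ _
    · exact (hq1 t).1
  · rintro h (t | t)
    · rfl
    · exact ((hq4 h).false t).elim
  · rintro (t | t)
    · simpa [q', v] using (D.mem_Z.1 (hz1 t)).2
    · exact hu2 t
  · rcases eq_or_ne S.P 0 with h | h
    · exact Or.inl h
    · refine Or.inr ?_
      rintro (t | t)
      · rfl
      · exact (mul_eq_zero.1 (hq1 t).2.1).resolve_left h
  · intro c T hT h0 hB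
    rw [hsq] at h0
    rw [hsv] at hB
    have h1 := hq3 _ T hT h0
    have h2 : ∀ t, c (Sum.inr t) = 0 := fun t => congrFun h1 t
    simp only [h2, zero_smul, Finset.sum_const_zero, add_zero] at h0 hB
    obtain ⟨h3, h4⟩ := hz3 _ T hT h0 hB
    refine ⟨?_, h4⟩
    funext t
    rcases t with t | t
    · exact congrFun h3 t
    · exact h2 t
  · intro a ha
    obtain ⟨c, T, hT, h0, hB⟩ := hz2 a ha
    refine ⟨Sum.elim c 0, T, hT, ?_, ?_⟩
    · rw [hsq]
      simpa using h0
    · rw [hsv]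
      simpa using hB
  · intro hf R hR h0 hB
    obtain ⟨c, T, hT, h⟩ := hq2 hf R hR h0 hB
    refine ⟨Sum.elim 0 c, T, hT, ?_⟩
    rw [hsq]
    simpa using h
  · change rename Sum.inl S.P = 0
    rw [h, map_zero]
  · rintro (j | t)
    · change rename Sum.inl (S.Q j) = 0
      rw [h1, map_zero]
    · rcases t with t | t
      · change rename Sum.inl (0 : MvPolynomial S.σ k) = 0
        rw [map_zero]
      · exact ((hq4 h2).false t).elim

/-! ### The odd step -/

/-- Real odd generator: either a second odd generator, or the same piece works. -/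
theorem step_odd {f₂ : ℕ} (S : Pre D (2 * f₂)) (hf : S.f ≤ f₂) :
    Nonempty (Two D f₂) ∨ ∃ S' : Pre D (2 * f₂ + 1), S'.f = S.f := by
  classical
  by_cases ha : ∀ R, IsWeightedHomogeneous S.w R (f₂ + 1) → mkDerivation k S.Q R = 0 →
      ev S.x R ∈ D.B (2 * (f₂ + 1)) → ∃ T, R = S.P * T
  · by_cases hb : ∀ z ∈ D.Z (2 * f₂ + 1), z ∈ D.B (2 * f₂ + 1) ∨
        (S.f ≤ f₂ ∧ ∃ R, IsWeightedHomogeneous S.w R (f₂ - S.f) ∧ S.P * R = 0 ∧
          z - S.y * ev S.x R ∈ D.B (2 * f₂ + 1))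
    · refine Or.inr ⟨{ S with
        w_le := fun j => (S.w_le j).trans (Nat.le_succ _)
        injE := fun e he R hR h0 hB => ?_
        injO := fun e he => S.injO e (by omega)
        surjE := fun e he => S.surjE e (by omega)
        surjO := fun e he z hz => ?_ }, rfl⟩
      · rcases Nat.lt_or_ge f₂ e with h | h
        · obtain rfl : e = f₂ + 1 := by omega
          exact ha R hR h0 hB
        · exact S.injE e (by omega) R hR h0 hB
      · rcases Nat.lt_or_ge e f₂ with h | h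
        · exact S.surjO e (by omega) z hz
        · obtain rfl : e = f₂ := by omega
          exact hb z hz
    · push Not at hb
      obtain ⟨z, hz, hzB, h⟩ := hb
      exact Or.inl ⟨{ S with
        f_le := hf
        y₂ := z
        y₂_mem := (D.mem_Z.1 hz).1
        P₂ := 0
        P₂_hom := isWeightedHomogeneous_zero _ _ _
        P₂_d := map_zero _
        d_y₂ := by rw [(D.mem_Z.1 hz).2, map_zero]
        new := fun ⟨R, hR, h0, hB⟩ => h hf R hR h0.symm hB }⟩
  · push Not at ha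
    obtain ⟨R, hR, h0, hB, h⟩ := ha
    obtain ⟨u, hu, hu'⟩ := D.mem_B_succ.1 (by
      have : 2 * (f₂ + 1) = (2 * f₂ + 1) + 1 := by ring
      rwa [this] at hB)
    exact Or.inl ⟨{ S with
      f_le := hf
      y₂ := u
      y₂_mem := hu
      P₂ := R
      P₂_hom := hR
      P₂_d := h0
      d_y₂ := hu'
      new := fun ⟨T, _, h1, _⟩ => h T h1 }⟩

/-- Dummy odd generator: either it remains a dummy, or there is a first odd generator. -/
theorem step_dummy {f₂ : ℕ} (hf₂ : 1 ≤ f₂) (S : Pre D (2 * f₂)) (h1 : 2 * f₂ + 1 ≤ S.f)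
    (h2 : S.y = 0) (h3 : S.P = 0) (h4 : ∀ j, S.Q j = 0) :
    (∃ S' : Pre D (2 * f₂ + 1), S'.Ok) ∨ ∃ S' : Pre D (2 * f₂), S'.f = f₂ := by
  classical
  have hQ : S.Q = fun _ => 0 := funext h4
  have hδ : ∀ R, mkDerivation k S.Q R = 0 := fun R => by
    rw [hQ]
    induction R using MvPolynomial.induction_on with
    | C a => simp
    | add p q hp hq => simp [hp, hq]
    | mul_X p i hp => simp [Derivation.leibniz, hp]
  -- a first odd generator
  have key : ∀ (y : A) (P : MvPolynomial S.σ k), y ∈ D.deg (2 * f₂ + 1) →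
      IsWeightedHomogeneous S.w P (f₂ + 1) → D.d y = ev S.x P →
      (∀ c : k, P * C c = 0 → c • y ∈ D.B (2 * f₂ + 1) → c = 0) →
      ∃ S' : Pre D (2 * f₂), S'.f = f₂ := by
    intro y P hy hP hd hnew
    refine ⟨{
      σ := S.σ
      w := S.w
      w_pos := S.w_pos
      w_le := S.w_le
      x := S.x
      x_mem := S.x_mem
      f := f₂
      f_pos := hf₂
      y := y
      y_mem := hy
      P := P
      P_hom := hP
      P_lin := fun j => ?_
      Q := fun _ => 0
      Q_hom := fun j => isWeightedHomogeneous_zero _ _ _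
      Q_zero := fun _ _ => rfl
      PQ := Or.inr fun _ => rfl
      d_x := fun j => by rw [S.d_x, h4]; simp
      d_y := hd
      injE := fun e he R hR h0 hB => ?_
      injO := fun e he hfe R hR h0 hB => ?_
      surjE := fun e he z hz => ?_
      surjO := fun e he z hz => ?_ }, rfl⟩
    · by_contra h
      have h5 := hP h
      rw [Finsupp.weight_single] at h5
      have h6 := S.w_le j
      simp only [one_smul] at h5
      omega
    · obtain ⟨T, hT⟩ := S.injE e he R hR (hδ R) hB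
      exact ⟨0, by rw [hT, h3, zero_mul, mul_zero]⟩
    · obtain rfl : e = f₂ := by omega
      rw [Nat.sub_self] at hR
      obtain ⟨c, rfl⟩ := hom_zero S.w_pos hR
      have h5 : c = 0 := hnew c h0 (by
        rw [ev_C, ← Algebra.commutes, ← Algebra.smul_def] at hB
        exact hB)
      refine ⟨0, isWeightedHomogeneous_zero _ _ _, ?_⟩
      rw [h5]
      simp
    · obtain ⟨R, hR, h0, hB⟩ := S.surjE e he z hz
      exact ⟨R, hR, by rw [← hQ]; exact h0, hB⟩
    · rcases S.surjO e he z hz with h | ⟨h, -⟩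
      · exact Or.inl h
      · omega
  by_cases ha : ∀ R, IsWeightedHomogeneous S.w R (f₂ + 1) →
      ev S.x R ∈ D.B (2 * (f₂ + 1)) → R = 0
  · by_cases hb : ∀ z ∈ D.Z (2 * f₂ + 1), z ∈ D.B (2 * f₂ + 1)
    · -- still a dummy
      let S' := S.bump h1 h3 h4 (2 * f₂ + 2) (by omega)
      have hQ' : S'.Q = S.Q := hQ.symm
      refine Or.inl ⟨{ S' with
        w_le := fun j => (S.w_le j).trans (Nat.le_succ _)
        injE := fun e he R hR h0 hB => ?_
        injO := fun e he => S'.injO e (by omega)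
        surjE := fun e he => S'.surjE e (by omega)
        surjO := fun e he z hz => ?_ }, Or.inr ⟨le_refl _, rfl, rfl, fun _ => rfl⟩⟩
      · rcases Nat.lt_or_ge f₂ e with h | h
        · obtain rfl : e = f₂ + 1 := by omega
          exact ⟨0, (ha R hR hB).trans (mul_zero _).symm⟩
        · exact S'.injE e (by omega) R hR h0 hB
      · rcases Nat.lt_or_ge e f₂ with h | h
        · exact S'.surjO e (by omega) z hz
        · obtain rfl : e = f₂ := by omega
          exact Or.inl (hb z hz)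
    · push Not at hb
      obtain ⟨z, hz, hzB⟩ := hb
      refine Or.inr (key z 0 (D.mem_Z.1 hz).1 (isWeightedHomogeneous_zero _ _ _)
        (by rw [(D.mem_Z.1 hz).2, map_zero]) fun c _ hc => ?_)
      by_contra h
      exact hzB ((Submodule.smul_mem_iff _ h).1 hc)
  · push Not at ha
    obtain ⟨R, hR, hB, h⟩ := ha
    obtain ⟨u, hu, hu'⟩ := D.mem_B_succ.1 (by
      have : 2 * (f₂ + 1) = (2 * f₂ + 1) + 1 := by ring
      rwa [this] at hB)
    refine Or.inr (key u R hu hR hu' fun c hc _ => ?_)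
    have := (mul_eq_zero.1 hc).resolve_left h
    simpa using this

/-! ### The start -/

/-- The start: `H^0 = k`, `H^1 = 0`. -/
theorem start (h1 : (1 : A) ≠ 0) (hZ0 : ∀ a ∈ D.Z 0, ∃ c : k, a = c • 1)
    (hZ1 : D.Z 1 ≤ D.B 1) : ∃ S : Pre D 1, S.Ok := by
  classical
  refine ⟨{
    σ := Empty
    w := fun _ => 1
    w_pos := fun j => j.elim
    w_le := fun j => j.elim
    x := fun j => j.elim
    x_mem := fun j => j.elim
    f := 2
    f_pos := by omega
    y := 0
    y_mem := Submodule.zero_mem _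
    P := 0
    P_hom := isWeightedHomogeneous_zero _ _ _
    P_lin := fun j => j.elim
    Q := fun _ => 0
    Q_hom := fun j => j.elim
    Q_zero := fun j => j.elim
    PQ := Or.inl rfl
    d_x := fun j => j.elim
    d_y := by simp
    injE := fun e he R hR h0 hB => ?_
    injO := fun e he hfe R hR h0 hB => by omega
    surjE := fun e he z hz => ?_
    surjO := fun e he z hz => ?_ }, Or.inr ⟨by simp, rfl, rfl, fun _ => rfl⟩⟩
  · refine ⟨0, ?_⟩
    rw [mul_zero]
    rw [eq_C_of_isEmpty R] at hR hB ⊢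
    by_contra h
    have h2 : coeff 0 R ≠ 0 := fun h3 => h (by rw [h3, map_zero])
    have h3 : (0 : ℕ) = e := by
      have := hR (d := 0) (by simpa using h2)
      simpa using this
    subst h3
    rw [Nat.mul_zero, D.mem_B_zero, ev_C, Algebra.algebraMap_eq_smul_one] at hB
    exact (smul_ne_zero h2 h1) hB
  · obtain rfl : e = 0 := by omega
    obtain ⟨c, rfl⟩ := hZ0 z hz
    refine ⟨C c, isWeightedHomogeneous_C _ c, by simp, ?_⟩
    rw [ev_C, Algebra.algebraMap_eq_smul_one, sub_self]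
    exact Submodule.zero_mem _
  · obtain rfl : e = 0 := by omega
    exact Or.inl (hZ1 hz)

/-- **The induction.** -/
theorem stages (h1 : (1 : A) ≠ 0) (hZ0 : ∀ a ∈ D.Z 0, ∃ c : k, a = c • 1)
    (hZ1 : D.Z 1 ≤ D.B 1) (hF : ∀ q, D.Fin q) (m : ℕ) (hm : 1 ≤ m) :
    (∃ S : Pre D m, S.Ok) ∨ ∃ f₂, Nonempty (Two D f₂) := by
  induction m, hm using Nat.le_induction with
  | base => exact Or.inl (start h1 hZ0 hZ1)
  | succ m hm ih =>
    rcases ih with ⟨S, hS⟩ | h
    swap
    · exact Or.inr h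
    rcases Nat.even_or_odd' m with ⟨f₂, rfl | rfl⟩
    · -- the odd step
      have real : ∀ S : Pre D (2 * f₂), S.f ≤ f₂ →
          (∃ S : Pre D (2 * f₂ + 1), S.Ok) ∨ ∃ f₂, Nonempty (Two D f₂) := by
        intro S hf
        rcases step_odd S hf with h | ⟨S', h⟩
        · exact Or.inr ⟨_, h⟩
        · exact Or.inl ⟨S', Or.inl (by omega)⟩
      rcases hS with h | ⟨h1, h2, h3, h4⟩
      · exact real S (by omega)
      · rcases step_dummy (by omega) S h1 h2 h3 h4 with h | ⟨S', h⟩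
        · exact Or.inl h
        · exact real S' (by omega)
    · -- the even step
      have hm' : 2 * f₂ + 1 + 1 = 2 * (f₂ + 1) := by ring
      rcases hS with h | ⟨h1, h2, h3, h4⟩
      · obtain ⟨S', h5, -⟩ := step_even S hm' (by omega) (hF _)
        exact Or.inl ⟨S', Or.inl (by omega)⟩
      · obtain ⟨S', h5, h6, h7, h8⟩ := step_even (S.bump h1 h3 h4 (2 * f₂ + 1 + 2) (by omega)) hm'
          (by change _ + 2 ≠ _; omega) (hF _)
        refine Or.inl ⟨S', Or.inr ⟨?_, h6, h7 rfl, h8 (fun _ => rfl) ?_⟩⟩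
        · rw [h5]
          exact le_refl _
        · change _ ≤ _ + 2
          omega

end Vale.Agent.P216.V706
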